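import Mathlib

/-!
In planar first-passage percolation with a nondegenerate law, no geodesic ray stays near a line.
-/

namespace Vale.Agent.Results.P158.NoRayNearLine

open MeasureTheory ProbabilityTheory Filter
open scoped Topology

noncomputable section

/-- Nearest neighbours in the square lattice. -/
def Adj (u v : ℤ × ℤ) : Prop := |u.1 - v.1| + |u.2 - v.2| = 1

/-- The edge joining two neighbours: lower endpoint and a flag for vertical edges. -/
noncomputable def edge (u v : ℤ × ℤ) : (ℤ × ℤ) × Bool := ((min u.1 v.1, min u.2 v.2), decide (u.1 = v.1))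

/-- The passage time of the first `n` steps of a path. -/
def passage (t : (ℤ × ℤ) × Bool → ℝ) (p : ℕ → ℤ × ℤ) (n : ℕ) : ℝ :=
  ∑ i ∈ Finset.range n, t (edge (p i) (p (i + 1)))

/-- A self-avoiding ray each of whose segments minimizes the passage time. -/
def IsGeodesicRay (t : (ℤ × ℤ) × Bool → ℝ) (v : ℕ → ℤ × ℤ) : Prop :=
  Function.Injective v ∧ (∀ i, Adj (v i) (v (i + 1))) ∧
    ∀ (i n : ℕ) (p : ℕ → ℤ × ℤ) (m : ℕ), p 0 = v i → p m = v (i + n) →
      (∀ k < m, Adj (p k) (p (k + 1))) → passage t (fun k => v (i + k)) n ≤ passage t p m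

/-- Strip membership of both endpoints of an edge. -/
def Inside (f : ℤ → ℤ) (W : ℤ) (e : (ℤ × ℤ) × Bool) : Prop :=
  if e.2 then |e.1.2 - f e.1.1| ≤ W ∧ |e.1.2 + 1 - f e.1.1| ≤ W
  else |e.1.2 - f e.1.1| ≤ W ∧ |e.1.2 - f (e.1.1 + 1)| ≤ W

/-- The edges of a box around the strip. -/
def box (f : ℤ → ℤ) (W : ℤ) (X : ℤ) (L : ℕ) : Finset ((ℤ × ℤ) × Bool) :=
  (Finset.Icc X (X + L)).biUnion fun x =>
    ({x} ×ˢ Finset.Icc (f x - W) (f x + 3 * W + 1)) ×ˢ Finset.univ

lemma mem_box {f : ℤ → ℤ} {W X : ℤ} {L : ℕ} {e : (ℤ × ℤ) × Bool} :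
    e ∈ box f W X L ↔ X ≤ e.1.1 ∧ e.1.1 ≤ X + L ∧ f e.1.1 - W ≤ e.1.2 ∧
      e.1.2 ≤ f e.1.1 + 3 * W + 1 := by
  simp only [box, Finset.mem_biUnion, Finset.mem_product, Finset.mem_singleton, Finset.mem_Icc,
    Finset.mem_univ, and_true]
  constructor
  · rintro ⟨x, ⟨h1, h2⟩, rfl, h3, h4⟩; exact ⟨h1, h2, h3, h4⟩
  · rintro ⟨h1, h2, h3, h4⟩; exact ⟨_, ⟨h1, h2⟩, rfl, h3, h4⟩

open Classical in
/-- Allowed weights in a barrier. -/
noncomputable def allowed (f : ℤ → ℤ) (W : ℤ) (a b c : ℝ) (e : (ℤ × ℤ) × Bool) : Set ℝ :=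
  if Inside f W e then Set.Icc a c else Set.Iic b

/-- A barrier: expensive strip, cheap surroundings. -/
noncomputable def good (f : ℤ → ℤ) (W X : ℤ) (L : ℕ) (a b c : ℝ) :
    Set ((ℤ × ℤ) × Bool → ℝ) :=
  Set.pi (box f W X L) (allowed f W a b c)

lemma adj_cases {u v : ℤ × ℤ} (h : Adj u v) :
    (edge u v).1.1 = min u.1 v.1 ∧
    ((edge u v = ((u.1, min u.2 v.2), true) ∧ v.1 = u.1 ∧ (v.2 = u.2 + 1 ∨ u.2 = v.2 + 1)) ∨
      (edge u v = ((min u.1 v.1, u.2), false) ∧ v.2 = u.2 ∧ (v.1 = u.1 + 1 ∨ u.1 = v.1 + 1))) := by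
  refine ⟨rfl, ?_⟩
  unfold Adj at h
  by_cases h1 : u.1 = v.1
  · refine Or.inl ⟨by simp [edge, h1], h1.symm, ?_⟩
    rw [h1, sub_self, abs_zero, zero_add] at h
    rcases (abs_eq zero_le_one).1 h with h2 | h2 <;> omega
  · have h2 : u.2 = v.2 := by
      rcases abs_cases (u.1 - v.1) with ⟨h2, h2'⟩ | ⟨h2, h2'⟩ <;>
        rcases abs_cases (u.2 - v.2) with ⟨h3, h3'⟩ | ⟨h3, h3'⟩ <;> omega
    refine Or.inr ⟨by simp [edge, h1, h2], h2.symm, ?_⟩
    rw [h2, sub_self, abs_zero, add_zero] at h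
    rcases (abs_eq zero_le_one).1 h with h3 | h3 <;> omega

/-- A segment crossing a barrier inside the strip is beaten by its translate above the strip. -/
lemma detour {f : ℤ → ℤ} {W X : ℤ} {L : ℕ} {a b c : ℝ} {t : (ℤ × ℤ) × Bool → ℝ} {H : ℕ}
    (hH : (H : ℤ) = 2 * W + 1) (hba : b < a)
    (hL : 2 * H * max (max b c) 0 < L * (a - b)) (ht : t ∈ good f W X L a b c)
    (p : ℕ → ℤ × ℤ) (n : ℕ) (hp : ∀ i < n, Adj (p i) (p (i + 1)))
    (hx : ∀ i ≤ n, X ≤ (p i).1 ∧ (p i).1 ≤ X + L)
    (hy : ∀ i ≤ n, |(p i).2 - f (p i).1| ≤ W) (hlen : (L : ℤ) ≤ |(p n).1 - (p 0).1|) :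
    ∃ (q : ℕ → ℤ × ℤ) (m : ℕ), q 0 = p 0 ∧ q m = p n ∧ (∀ k < m, Adj (q k) (q (k + 1))) ∧
      passage t q m < passage t p n := by
  classical
  set C := max (max b c) 0
  have hW : 0 ≤ W := le_trans (abs_nonneg _) (hy 0 (Nat.zero_le _))
  have hweight : ∀ e ∈ box f W X L, t e ≤ C := by
    intro e he
    have h := ht e he
    unfold allowed at h
    split at h
    · exact le_trans h.2 (le_trans (le_max_right _ _) (le_max_left _ _))
    · exact le_trans h (le_trans (le_max_left _ _) (le_max_left _ _))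
  have hvert : ∀ (i : ℕ) (j : ℕ), i ≤ n → j < H →
      t (((p i).1, (p i).2 + j), true) ≤ C := by
    intro i j hi hj
    refine hweight _ (mem_box.2 ⟨(hx i hi).1, (hx i hi).2, ?_, ?_⟩) <;>
      have := abs_le.1 (hy i hi) <;> simp only <;> omega
  have hstep : ∀ i < n, a ≤ t (edge (p i) (p (i + 1))) ∧
      t (edge ((p i).1, (p i).2 + H) ((p (i + 1)).1, (p (i + 1)).2 + H)) ≤ b := by
    intro i hi
    obtain ⟨hx1, hx2⟩ := hx i hi.le
    obtain ⟨hx1', hx2'⟩ := hx (i + 1) hi
    have hy1 := abs_le.1 (hy i hi.le)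
    have hy2 := abs_le.1 (hy (i + 1) hi)
    rcases adj_cases (hp i hi) with ⟨-, ⟨he, h1, h2⟩ | ⟨he, h1, h2⟩⟩
    · rw [h1] at hy2
      have he' : edge ((p i).1, (p i).2 + H) ((p (i + 1)).1, (p (i + 1)).2 + H) =
          (((p i).1, min (p i).2 (p (i + 1)).2 + H), true) := by
        simp [edge, h1, min_add_add_right]
      rw [he, he']
      constructor
      · have h := ht (((p i).1, min (p i).2 (p (i + 1)).2), true)
          (mem_box.2 ⟨hx1, hx2, by simp only; omega, by simp only; omega⟩)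
        rw [allowed, if_pos] at h
        · exact h.1
        · simp only [Inside, if_true, abs_le]; omega
      · have h := ht (((p i).1, min (p i).2 (p (i + 1)).2 + H), true)
          (mem_box.2 ⟨hx1, hx2, by simp only; omega, by simp only; omega⟩)
        rw [allowed, if_neg] at h
        · exact h
        · simp only [Inside, if_true, abs_le]; omega
    · have hne : (p i).1 ≠ (p (i + 1)).1 := by omega
      have he' : edge ((p i).1, (p i).2 + H) ((p (i + 1)).1, (p (i + 1)).2 + H) =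
          ((min (p i).1 (p (i + 1)).1, (p i).2 + H), false) := by
        simp [edge, h1, hne]
      rw [he, he']
      have hends : |(p i).2 - f (min (p i).1 (p (i + 1)).1)| ≤ W ∧
          |(p i).2 - f (min (p i).1 (p (i + 1)).1 + 1)| ≤ W := by
        rw [h1] at hy2
        rcases h2 with h2 | h2
        · rw [min_eq_left (by omega), ← h2]; exact ⟨abs_le.2 hy1, abs_le.2 hy2⟩
        · rw [min_eq_right (by omega), ← h2]; exact ⟨abs_le.2 hy2, abs_le.2 hy1⟩
      have hb1 := abs_le.1 hends.1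
      constructor
      · have h := ht ((min (p i).1 (p (i + 1)).1, (p i).2), false)
          (mem_box.2 ⟨by simp only; omega, by simp only; omega, by simp only; omega,
            by simp only; omega⟩)
        rw [allowed, if_pos] at h
        · exact h.1
        · simpa [Inside] using hends
      · have h := ht ((min (p i).1 (p (i + 1)).1, (p i).2 + H), false)
          (mem_box.2 ⟨by simp only; omega, by simp only; omega, by simp only; omega,
            by simp only; omega⟩)
        rw [allowed, if_neg] at h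
        · exact h
        · simp only [Inside, Bool.false_eq_true, if_false, abs_le]; omega
  have hn : (L : ℤ) ≤ n := by
    have hmove : ∀ i ≤ n, |(p i).1 - (p 0).1| ≤ (i : ℤ) := by
      intro i
      induction i with
      | zero => simp
      | succ i ih =>
        intro hi
        have h1 := ih (by omega)
        rcases adj_cases (hp i (by omega)) with ⟨-, ⟨-, h2, -⟩ | ⟨-, -, h2⟩⟩ <;>
          (rw [abs_le] at h1 ⊢; omega)
    exact le_trans hlen (hmove n le_rfl)
  let q : ℕ → ℤ × ℤ := fun k =>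
    if k ≤ H then ((p 0).1, (p 0).2 + k)
    else if k ≤ H + n then ((p (k - H)).1, (p (k - H)).2 + H)
    else ((p n).1, (p n).2 + ((H + n + H - k : ℕ) : ℤ))
  have q1 : ∀ k ≤ H, q k = ((p 0).1, (p 0).2 + k) := fun k hk => by simp [q, hk]
  have q2 : ∀ k ≤ n, q (H + k) = ((p k).1, (p k).2 + H) := by
    intro k hk
    rcases Nat.eq_zero_or_pos k with rfl | hk0
    · simp [q]
    · simp [q, show ¬ H + k ≤ H by omega, hk]
  have q3 : ∀ k ≤ H, q (H + n + k) = ((p n).1, (p n).2 + ((H - k : ℕ) : ℤ)) := by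
    intro k hk
    rcases Nat.eq_zero_or_pos k with rfl | hk0
    · simpa using q2 n le_rfl
    · simp only [q, show ¬ H + n + k ≤ H by omega, show ¬ H + n + k ≤ H + n by omega, if_false]
      rw [show H + n + H - (H + n + k) = H - k by omega]
  have e1 : ∀ i < H, Adj (q i) (q (i + 1)) ∧ edge (q i) (q (i + 1)) =
      (((p 0).1, (p 0).2 + i), true) := by
    intro i hi
    rw [q1 i hi.le, q1 (i + 1) hi]
    simp [Adj, edge, ← add_assoc]
  have e2 : ∀ i < n, Adj (q (H + i)) (q (H + i + 1)) ∧ edge (q (H + i)) (q (H + i + 1)) =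
      edge ((p i).1, (p i).2 + H) ((p (i + 1)).1, (p (i + 1)).2 + H) := by
    intro i hi
    rw [add_assoc, q2 i hi.le, q2 (i + 1) hi]
    refine ⟨?_, rfl⟩
    have := hp i hi
    simpa [Adj] using this
  have e3 : ∀ i < H, Adj (q (H + n + i)) (q (H + n + i + 1)) ∧
      edge (q (H + n + i)) (q (H + n + i + 1)) =
        (((p n).1, (p n).2 + ((H - (i + 1) : ℕ) : ℤ)), true) := by
    intro i hi
    rw [add_assoc (H + n), q3 i hi.le, q3 (i + 1) hi]
    constructor
    · unfold Adj; simp only [sub_self, abs_zero, zero_add]; rw [abs_of_nonneg] <;> omega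
    · simp only [edge, min_self, decide_true]; congr; omega
  refine ⟨q, H + n + H, by simp [q1 0 (Nat.zero_le _)], by simpa using q3 H le_rfl, ?_, ?_⟩
  · intro k hk
    rcases lt_or_ge k H with h | h
    · exact (e1 k h).1
    obtain ⟨i, rfl⟩ := Nat.exists_eq_add_of_le h
    rcases lt_or_ge i n with h' | h'
    · exact (e2 i h').1
    obtain ⟨j, rfl⟩ := Nat.exists_eq_add_of_le h'
    rw [← add_assoc]
    exact (e3 j (by omega)).1
  · have hlow : (n : ℝ) * a ≤ passage t p n := by
      have := Finset.card_nsmul_le_sum (Finset.range n) _ a fun i hi =>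
        (hstep i (Finset.mem_range.1 hi)).1
      simpa [passage] using this
    have hup : passage t q (H + n + H) ≤ (H : ℝ) * C + n * b + H * C := by
      unfold passage
      rw [Finset.sum_range_add, Finset.sum_range_add]
      refine add_le_add (add_le_add ?_ ?_) ?_
      · calc _ ≤ ∑ _i ∈ Finset.range H, C := Finset.sum_le_sum fun i hi => by
              rw [(e1 i (Finset.mem_range.1 hi)).2]
              exact hvert 0 i (Nat.zero_le _) (Finset.mem_range.1 hi)
          _ = _ := by simp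
      · calc _ ≤ ∑ _i ∈ Finset.range n, b := Finset.sum_le_sum fun i hi => by
              rw [(e2 i (Finset.mem_range.1 hi)).2]
              exact (hstep i (Finset.mem_range.1 hi)).2
          _ = _ := by simp
      · calc _ ≤ ∑ _i ∈ Finset.range H, C := Finset.sum_le_sum fun i hi => by
              rw [(e3 i (Finset.mem_range.1 hi)).2]
              exact hvert n _ le_rfl (by have := Finset.mem_range.1 hi; omega)
          _ = _ := by simp
    have hnR : (L : ℝ) ≤ n := by exact_mod_cast hn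
    nlinarith [mul_le_mul_of_nonneg_right hnR (sub_pos.2 hba).le]

/-- A walk with unit steps crosses an interval. -/
lemma crossing (z : ℕ → ℤ) (hz : ∀ i, |z (i + 1) - z i| ≤ 1) {lo hi : ℤ} (h0 : z 0 ≤ lo)
    (hlh : lo ≤ hi) (hex : ∃ i, hi ≤ z i) :
    ∃ i n, z i = lo ∧ z (i + n) = hi ∧ ∀ k ≤ n, lo ≤ z (i + k) ∧ z (i + k) ≤ hi := by
  classical
  set j := Nat.find hex
  have hj : hi ≤ z j := Nat.find_spec hex
  have hbefore : ∀ k < j, z k < hi := fun k hk => not_le.1 (Nat.find_min hex hk)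
  have hjhi : z j = hi := by
    rcases Nat.eq_zero_or_pos j with h | h
    · rw [h] at hj ⊢; omega
    · have := hbefore (j - 1) (by omega)
      have h2 := abs_le.1 (hz (j - 1))
      rw [Nat.sub_add_cancel h] at h2
      omega
  set i := Nat.findGreatest (fun k => z k ≤ lo) j
  have hij : i ≤ j := Nat.findGreatest_le j
  have hi' : z i ≤ lo := Nat.findGreatest_spec (P := fun k => z k ≤ lo) (Nat.zero_le j) h0
  have hafter : ∀ k, i < k → k ≤ j → lo < z k := fun k h1 h2 =>
    not_le.1 (Nat.findGreatest_is_greatest (P := fun k => z k ≤ lo) h1 h2)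
  have hilo : z i = lo := by
    rcases eq_or_lt_of_le hij with h | h
    · rw [h] at hi' ⊢; omega
    · have := hafter (i + 1) (by omega) h
      have h2 := abs_le.1 (hz i)
      omega
  refine ⟨i, j - i, hilo, by rw [Nat.add_sub_cancel' hij, hjhi], fun k hk => ?_⟩
  constructor
  · rcases Nat.eq_zero_or_pos k with rfl | h
    · simp [hilo]
    · exact (hafter (i + k) (by omega) (by omega)).le
  · rcases eq_or_lt_of_le (show i + k ≤ j by omega) with h | h
    · rw [h, hjhi]
    · exact (hbefore _ h).le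

/-- Environments in which some line meets no barrier on one side. -/
def fails (a b c : ℝ) (W : ℤ) (L : ℕ) (j0 s : ℤ) (M : ℕ) : Set ((ℤ × ℤ) × Bool → ℝ) :=
  {t | ∃ α β : ℝ, |α| ≤ 1 ∧ |β| ≤ M ∧ ∀ (i : ℕ) (f : ℤ → ℤ),
    (∀ x, j0 + s * ((L + 1) * i) ≤ x → x ≤ j0 + s * ((L + 1) * i) + L →
      |α * x + β - f x| ≤ 3) → t ∉ good f W (j0 + s * ((L + 1) * i)) L a b c}

lemma fails_null (G : Measure ℝ) [IsProbabilityMeasure G] {a b c : ℝ} (hb : 0 < G (Set.Iic b))
    (hac : 0 < G (Set.Icc a c)) (W : ℤ) (L : ℕ) (j0 s : ℤ) (hs : s = 1 ∨ s = -1) (M : ℕ) :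
    Measure.infinitePi (fun _ : (ℤ × ℤ) × Bool => G) (fails a b c W L j0 s M) = 0 := by
  classical
  set μ := Measure.infinitePi (fun _ : (ℤ × ℤ) × Bool => G) with hμ
  set X : ℕ → ℤ := fun i => j0 + s * ((L + 1) * i) with hX
  set q : ℝ := min (G.real (Set.Iic b)) (G.real (Set.Icc a c)) with hq
  have hq0 : 0 < q := lt_min (ENNReal.toReal_pos hb.ne' (measure_ne_top _ _))
    (ENNReal.toReal_pos hac.ne' (measure_ne_top _ _))
  have hq1 : q ≤ 1 := le_trans (min_le_left _ _) measureReal_le_one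
  set D : ℕ := (L + 1) * (4 * W + 2).toNat * 2
  set r : ℝ := 1 - q ^ D with hr
  have hr0 : 0 ≤ r := by have := pow_le_one₀ (n := D) hq0.le hq1; linarith
  have hr1 : r < 1 := by have := pow_pos hq0 D; linarith
  have hall : ∀ (f : ℤ → ℤ) (e : (ℤ × ℤ) × Bool), MeasurableSet (allowed f W a b c e) := by
    intro f e; unfold allowed; split
    · exact measurableSet_Icc
    · exact measurableSet_Iic
  have hgood : ∀ (f : ℤ → ℤ) (i : ℕ), μ.real (good f W (X i) L a b c)ᶜ ≤ r := by
    intro f i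
    have hm : MeasurableSet (good f W (X i) L a b c) :=
      .pi (Finset.countable_toSet _) fun e _ => hall f e
    have hcard : (box f W (X i) L).card ≤ D := by
      refine le_trans Finset.card_biUnion_le (le_trans (Finset.sum_le_card_nsmul _ _
        ((4 * W + 2).toNat * 2) fun x _ => ?_) ?_)
      · simp only [Finset.card_product, Finset.card_singleton, one_mul, Int.card_Icc,
          Finset.card_univ, Fintype.card_bool]
        exact Nat.mul_le_mul_right _ (le_of_eq (congrArg Int.toNat (by ring)))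
      · simp only [Int.card_Icc, D, smul_eq_mul, mul_assoc]
        rw [show (X i + L + 1 - X i).toNat = L + 1 by omega]
    rw [measureReal_compl hm, probReal_univ, hr, measureReal_def, good,
      Measure.infinitePi_pi _ (fun e _ => hall f e), ENNReal.toReal_prod]
    refine sub_le_sub_left (le_trans (pow_le_pow_of_le_one hq0.le hq1 hcard) ?_) _
    rw [← Finset.prod_const]
    refine Finset.prod_le_prod (fun e _ => hq0.le) fun e _ => ?_
    unfold allowed; split
    · exact min_le_right _ _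
    · exact min_le_left _ _
  have hprod : ∀ (f : ℤ → ℤ) (n : ℕ),
      μ.real (⋂ i ∈ Finset.range n, (good f W (X i) L a b c)ᶜ) ≤ r ^ n := by
    intro f n
    induction n with
    | zero => simp
    | succ n ih =>
      set S := (Finset.range n).biUnion fun i => box f W (X i) L
      set T := box f W (X n) L
      have hST : Disjoint S T := by
        refine Finset.disjoint_left.2 fun e he he' => ?_
        obtain ⟨i, hi, hei⟩ := Finset.mem_biUnion.1 he
        obtain ⟨h1, h2, -⟩ := mem_box.1 hei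
        obtain ⟨h3, h4, -⟩ := mem_box.1 he'
        have hin : (i : ℤ) + 1 ≤ n := by exact_mod_cast Finset.mem_range.1 hi
        have hm : ((L : ℤ) + 1) * i + (L + 1) ≤ ((L : ℤ) + 1) * n := by nlinarith
        simp only [hX] at h1 h2 h3 h4
        rcases hs with rfl | rfl <;> omega
      have hind := (iIndepFun_infinitePi (P := fun _ : (ℤ × ℤ) × Bool => G)
        (X := fun _ w => w) (fun _ => measurable_id)).indepFun_finset S T hST
        (fun i => measurable_pi_apply i)
      let A : Set (S → ℝ) := ⋂ i, ⋂ hi : i ∈ Finset.range n,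
        ((fun (w : S → ℝ) (e : {x // x ∈ box f W (X i) L}) =>
          w ⟨e.1, Finset.mem_biUnion.2 ⟨i, hi, e.2⟩⟩) ⁻¹'
          (Set.univ.pi fun e : box f W (X i) L => allowed f W a b c e.1))ᶜ
      let B : Set (T → ℝ) := (Set.univ.pi fun e : T => allowed f W a b c e.1)ᶜ
      have hA : MeasurableSet A := MeasurableSet.iInter fun i => MeasurableSet.iInter fun hi =>
        ((MeasurableSet.univ_pi fun (e : {x // x ∈ box f W (X i) L}) => hall f e.1).preimage
          (by fun_prop)).compl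
      have hB : MeasurableSet B := (MeasurableSet.univ_pi fun (e : T) => hall f e.1).compl
      have h := hind.measure_inter_preimage_eq_mul A B hA hB
      have e1 : (fun w (e : S) => w e.1) ⁻¹' A =
          ⋂ i ∈ Finset.range n, (good f W (X i) L a b c)ᶜ := by
        ext w; simp [A, good, Set.mem_pi]
      have e2 : (fun w (e : T) => w e.1) ⁻¹' B = (good f W (X n) L a b c)ᶜ := by
        ext w; simp [B, good, Set.mem_pi, T]
      rw [e1, e2] at h
      rw [Finset.range_add_one, Finset.set_biInter_insert, Set.inter_comm, measureReal_def, h,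
        ENNReal.toReal_mul, pow_succ]
      exact mul_le_mul ih (hgood f n) ENNReal.toReal_nonneg (pow_nonneg hr0 n)
  have hbound : ∀ n : ℕ, μ.real (fails a b c W L j0 s M) ≤
      ((2 * (j0.natAbs + (n + 2) * (L + 1)) + 3) * (2 * M + 3) : ℕ) * r ^ n := by
    intro n
    set N : ℕ := j0.natAbs + (n + 2) * (L + 1) with hN
    set P := (Finset.Icc (-(N : ℤ) - 1) (N + 1)) ×ˢ (Finset.Icc (-(M : ℤ) - 1) (M + 1))
    have hsub : fails a b c W L j0 s M ⊆ ⋃ p ∈ P, ⋂ i ∈ Finset.range n,
        (good (fun x => p.1 * x / N + p.2) W (X i) L a b c)ᶜ := by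
      rintro t ⟨α, β, hα, hβ, ht⟩
      have hN0 : (0 : ℝ) < N := by
        have : 0 < N := by rw [hN]; positivity
        exact_mod_cast this
      simp only [Set.mem_iUnion, Set.mem_iInter]
      refine ⟨(⌊α * N⌋, ⌊β⌋), ?_, fun i hi => ht i _ fun x hx1 hx2 => ?_⟩
      · have hα' := abs_le.1 hα
        have hβ' := abs_le.1 hβ
        simp only [P, Finset.mem_product, Finset.mem_Icc]
        refine ⟨⟨Int.le_floor.2 ?_, ?_⟩, Int.le_floor.2 ?_, ?_⟩
        · push_cast; nlinarith
        · exact Int.floor_le_iff.2 (by push_cast; nlinarith)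
        · push_cast; linarith
        · exact Int.floor_le_iff.2 (by push_cast; linarith)
      · have hxN : |x| ≤ (N : ℤ) := by
          have hin : (i : ℤ) + 1 ≤ n := by exact_mod_cast Finset.mem_range.1 hi
          have hm : ((L : ℤ) + 1) * i ≤ ((L : ℤ) + 1) * n := by nlinarith
          have hm0 : (0 : ℤ) ≤ ((L : ℤ) + 1) * i := by positivity
          have hNZ : (N : ℤ) = |j0| + ((L : ℤ) + 1) * n + 2 * (L + 1) := by
            rw [hN]; push_cast; ring
          rw [hNZ, abs_le]
          rcases abs_cases j0 with ⟨h, h'⟩ | ⟨h, h'⟩ <;> rcases hs with rfl | rfl <;> omega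
        have hxR : |(x : ℝ)| ≤ N := by exact_mod_cast hxN
        have hk1 := Int.floor_le (α * N)
        have hk2 := Int.lt_floor_add_one (α * N)
        have hb1 := Int.floor_le β
        have hb2 := Int.lt_floor_add_one β
        set k := ⌊α * N⌋
        have hNZ0 : (0 : ℤ) < N := by exact_mod_cast hN0
        have hd1 : ((k * x / N : ℤ) : ℝ) * N ≤ k * x := by
          exact_mod_cast Int.ediv_mul_le (k * x) hNZ0.ne'
        have hd2 : (k : ℝ) * x < (((k * x / N : ℤ) : ℝ) + 1) * N := by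
          exact_mod_cast Int.lt_ediv_add_one_mul_self (k * x) hNZ0
        have hkx : |α * N * x - k * x| ≤ N := by
          rw [← sub_mul, abs_mul]
          calc _ ≤ 1 * (N : ℝ) := mul_le_mul (abs_le.2 ⟨by linarith, by linarith⟩) hxR
                (abs_nonneg _) zero_le_one
            _ = _ := one_mul _
        rw [abs_le] at hkx ⊢
        push_cast
        constructor <;> nlinarith
    refine le_trans (measureReal_mono hsub (measure_ne_top _ _)) (le_trans (measureReal_biUnion_finset_le _ _) ?_)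
    refine le_trans (Finset.sum_le_card_nsmul _ _ _ fun p _ => hprod _ n) ?_
    rw [nsmul_eq_mul]
    refine mul_le_mul_of_nonneg_right (Nat.cast_le.2 ?_) (pow_nonneg hr0 n)
    simp only [P, Finset.card_product, Int.card_Icc]
    exact Nat.mul_le_mul (by omega) (by omega)
  have hlim : Tendsto (fun n : ℕ =>
      (((2 * (j0.natAbs + (n + 2) * (L + 1)) + 3) * (2 * M + 3) : ℕ) : ℝ) * r ^ n) atTop (𝓝 0) := by
    have h1 := tendsto_self_mul_const_pow_of_lt_one hr0 hr1
    have h2 := tendsto_pow_atTop_nhds_zero_of_lt_one hr0 hr1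
    have := (h1.const_mul (2 * ((L : ℝ) + 1) * (2 * M + 3))).add
      (h2.const_mul ((2 * ((j0.natAbs : ℝ) + 2 * (L + 1)) + 3) * (2 * M + 3)))
    simp only [mul_zero, add_zero] at this
    refine this.congr fun n => ?_
    push_cast; ring
  exact (measureReal_eq_zero_iff).1
    (le_antisymm (ge_of_tendsto' hlim hbound) measureReal_nonneg)

/-- Coordinate swap of edges. -/
def swapEdge : ((ℤ × ℤ) × Bool) ≃ ((ℤ × ℤ) × Bool) where
  toFun e := ((e.1.2, e.1.1), !e.2)
  invFun e := ((e.1.2, e.1.1), !e.2)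
  left_inv e := by simp
  right_inv e := by simp

lemma edge_swap {u v : ℤ × ℤ} (h : Adj u v) :
    swapEdge (edge u v) = edge u.swap v.swap := by
  rcases adj_cases h with ⟨-, ⟨-, h1, h2⟩ | ⟨-, h1, h2⟩⟩
  · have : u.2 ≠ v.2 := by omega
    simp [edge, swapEdge, h1, this]
  · have : u.1 ≠ v.1 := by omega
    simp [edge, swapEdge, h1, this]

lemma ray_swap {t : (ℤ × ℤ) × Bool → ℝ} {v : ℕ → ℤ × ℤ} (h : IsGeodesicRay t v) :
    IsGeodesicRay (fun e => t (swapEdge e)) (fun i => (v i).swap) := by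
  have hadj : ∀ u w : ℤ × ℤ, Adj u.swap w.swap ↔ Adj u w := fun u w => by
    simp [Adj, add_comm]
  have hpass : ∀ (p : ℕ → ℤ × ℤ) (m : ℕ), (∀ k < m, Adj (p k) (p (k + 1))) →
      passage (fun e => t (swapEdge e)) p m = passage t (fun k => (p k).swap) m := fun p m hp =>
    Finset.sum_congr rfl fun k hk => by
      simp only; rw [edge_swap (hp k (Finset.mem_range.1 hk))]
  refine ⟨fun i j hij => h.1 (Prod.swap_injective hij), fun i => (hadj _ _).2 (h.2.1 i),
    fun i n p m hp0 hpm hp => ?_⟩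
  rw [hpass _ n fun k _ => (hadj _ _).2 (h.2.1 (i + k)), hpass p m hp]
  simpa using h.2.2 i n (fun k => (p k).swap) m (by simp [hp0]) (by simp [hpm])
    fun k hk => (hadj _ _).2 (hp k hk)

lemma near_null (G : Measure ℝ) [IsProbabilityMeasure G] (hG : ∀ x : ℝ, G {x} < 1) :
    Measure.infinitePi (fun _ : (ℤ × ℤ) × Bool => G) {t | ∃ v, IsGeodesicRay t v ∧
      ∃ α β K : ℝ, |α| ≤ 1 ∧ ∀ n, |((v n).2 : ℝ) - α * (v n).1 - β| ≤ K} = 0 := by
  obtain ⟨a, b, hba, hb, ha⟩ : ∃ a b, b < a ∧ 0 < G (Set.Iic b) ∧ 0 < G (Set.Ici a) := by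
    obtain ⟨x, hx⟩ := Measure.nonempty_support (NeZero.ne G)
    rw [Measure.mem_support_iff_forall] at hx
    have hne : G ({x}ᶜ) ≠ 0 := by
      rw [measure_compl (measurableSet_singleton x) (measure_ne_top _ _), measure_univ]
      exact (tsub_pos_of_lt (hG x)).ne'
    rw [← Set.Iio_union_Ioi, Ne, measure_union_null_iff, not_and_or] at hne
    rcases hne with h | h
    · obtain ⟨d, hd⟩ : ∃ d : ℕ, 0 < G (Set.Iic (x - 1 / (d + 1))) := by
        by_contra hc
        push Not at hc
        refine h (measure_mono_null ?_ (measure_iUnion_null fun d => nonpos_iff_eq_zero.1 (hc d)))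
        intro y hy
        obtain ⟨d, hd⟩ := exists_nat_one_div_lt (sub_pos.2 (Set.mem_Iio.1 hy))
        exact Set.mem_iUnion.2 ⟨d, Set.mem_Iic.2 (by linarith)⟩
      refine ⟨x - 1 / (d + 1) / 2, x - 1 / (d + 1), ?_, hd, hx _ (Ici_mem_nhds ?_)⟩ <;>
        linarith [one_div_pos.2 (show (0 : ℝ) < d + 1 by positivity)]
    · obtain ⟨d, hd⟩ : ∃ d : ℕ, 0 < G (Set.Ici (x + 1 / (d + 1))) := by
        by_contra hc
        push Not at hc
        refine h (measure_mono_null ?_ (measure_iUnion_null fun d => nonpos_iff_eq_zero.1 (hc d)))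
        intro y hy
        obtain ⟨d, hd⟩ := exists_nat_one_div_lt (sub_pos.2 (Set.mem_Ioi.1 hy))
        exact Set.mem_iUnion.2 ⟨d, Set.mem_Ici.2 (by linarith)⟩
      refine ⟨x + 1 / (d + 1), x + 1 / (d + 1) / 2, ?_, hx _ (Iic_mem_nhds ?_), hd⟩ <;>
        linarith [one_div_pos.2 (show (0 : ℝ) < d + 1 by positivity)]
  obtain ⟨c, hc⟩ : ∃ c : ℕ, 0 < G (Set.Icc a c) := by
    by_contra hc
    push Not at hc
    refine ha.ne' (measure_mono_null ?_ (measure_iUnion_null fun d => nonpos_iff_eq_zero.1 (hc d)))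
    intro y hy
    exact Set.mem_iUnion.2 ⟨⌈y⌉₊, hy, Nat.le_ceil y⟩
  choose L hL using fun K : ℕ =>
    exists_nat_gt (2 * (2 * ((K : ℝ) + 3) + 1) * max (max b (c : ℝ)) 0 / (a - b))
  refine measure_mono_null (t := ⋃ K : ℕ, ⋃ M : ℕ, ⋃ j0 : ℤ, ⋃ s ∈ ({1, -1} : Set ℤ),
    fails a b c (K + 3) (L K) j0 s M) ?_ ?_
  · rintro t ⟨v, ⟨hinj, hadj, hmin⟩, α, β, K, hα, hK⟩
    simp only [Set.mem_iUnion]
    set K' : ℕ := ⌈K⌉₊
    have hK' : K ≤ K' := Nat.le_ceil K
    set L' := L K'
    have hL' : 2 * ((2 * K' + 7 : ℕ) : ℝ) * max (max b (c : ℝ)) 0 < L' * (a - b) := by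
      rw [← div_lt_iff₀ (sub_pos.2 hba)]
      refine lt_of_eq_of_lt ?_ (hL K')
      push_cast; ring
    have hstep : ∀ i, |(v (i + 1)).1 - (v i).1| ≤ 1 := fun i => by
      rcases adj_cases (hadj i) with ⟨-, ⟨-, h1, -⟩ | ⟨-, -, h1⟩⟩ <;> rw [abs_le] <;> omega
    -- no barrier can be crossed
    have key : ∀ (i n : ℕ) (X : ℤ) (f : ℤ → ℤ),
        (∀ x, X ≤ x → x ≤ X + L' → |α * x + β - f x| ≤ 3) →
        (∀ k ≤ n, X ≤ (v (i + k)).1 ∧ (v (i + k)).1 ≤ X + L') →
        (L' : ℤ) ≤ |(v (i + n)).1 - (v i).1| → t ∉ good f (K' + 3) X L' a b c := by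
      intro i n X f hf hx hlen ht
      have hy : ∀ k ≤ n, |(v (i + k)).2 - f (v (i + k)).1| ≤ (K' : ℤ) + 3 := by
        intro k hk
        have e1 := hf _ (hx k hk).1 (hx k hk).2
        have e2 := hK (i + k)
        have e3 : |((v (i + k)).2 : ℝ) - f (v (i + k)).1| ≤ (K' : ℝ) + 3 := by
          rw [abs_le] at e1 e2 ⊢; constructor <;> linarith
        exact_mod_cast e3
      obtain ⟨q, m, h1, h2, h3, h4⟩ := detour (H := 2 * K' + 7) (W := (K' : ℤ) + 3)
        (by push_cast; ring) hba hL' ht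
        (fun k => v (i + k)) n (fun k _ => hadj (i + k)) hx hy (by simpa using hlen)
      exact not_le.2 h4 (hmin i n q m (by simpa using h1) h2 h3)
    set M : ℕ := ⌈|β|⌉₊
    by_cases hup : ∀ B : ℤ, ∃ i, B ≤ (v i).1
    · refine ⟨K', M, (v 0).1, 1, by simp, α, β, hα, Nat.le_ceil _, fun i f hf => ?_⟩
      set X := (v 0).1 + 1 * (((L' : ℤ) + 1) * i) with hX
      have h0 : (v 0).1 ≤ X := by
        have : (0 : ℤ) ≤ ((L' : ℤ) + 1) * i := by positivity
        omega
      obtain ⟨k, n, hk, hkn, hin⟩ := crossing (fun i => (v i).1) hstep h0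
        (show X ≤ X + L' by omega) (hup _)
      exact key k n X f hf hin (by rw [hk, hkn, add_sub_cancel_left]; exact le_abs_self _)
    · push Not at hup
      obtain ⟨B, hB⟩ := hup
      have hdown : ∀ B' : ℤ, ∃ i, (v i).1 ≤ B' := by
        by_contra hdown
        push Not at hdown
        obtain ⟨B', hB'⟩ := hdown
        obtain ⟨Y, hY⟩ := exists_nat_gt (K + |β| + |(B : ℝ)| + |(B' : ℝ)|)
        refine Set.infinite_range_of_injective hinj (((Set.finite_Icc B' B).prod
          (Set.finite_Icc (-(Y : ℤ)) Y)).subset ?_)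
        rintro _ ⟨i, rfl⟩
        have h1 : (B' : ℝ) ≤ (v i).1 := by exact_mod_cast (hB' i).le
        have h2 : ((v i).1 : ℝ) ≤ B := by exact_mod_cast (hB i).le
        have h3 : |((v i).1 : ℝ)| ≤ |(B : ℝ)| + |(B' : ℝ)| := abs_le.2
          ⟨by linarith [neg_abs_le (B' : ℝ), abs_nonneg (B : ℝ)],
           by linarith [le_abs_self (B : ℝ), abs_nonneg (B' : ℝ)]⟩
        have h4 : |α * ((v i).1 : ℝ)| ≤ |(B : ℝ)| + |(B' : ℝ)| := by
          rw [abs_mul]
          exact le_trans (mul_le_mul hα h3 (abs_nonneg _) zero_le_one) (one_mul _).le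
        have h5 := hK i
        have h6 : |((v i).2 : ℝ)| ≤ Y := by
          have h7 := abs_le.1 h4
          have h8 := abs_le.1 h5
          rw [abs_le]
          constructor <;> linarith [le_abs_self β, neg_abs_le β]
        refine ⟨⟨(hB' i).le, (hB i).le⟩, ?_⟩
        exact abs_le.1 (show |(v i).2| ≤ (Y : ℤ) by exact_mod_cast h6)
      refine ⟨K', M, (v 0).1 - L', -1, by simp, α, β, hα, Nat.le_ceil _, fun i f hf => ?_⟩
      set X := (v 0).1 - L' + -1 * (((L' : ℤ) + 1) * i) with hX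
      have hpos : (0 : ℤ) ≤ ((L' : ℤ) + 1) * i := by positivity
      obtain ⟨j, hj⟩ := hdown X
      obtain ⟨k, n, hk, hkn, hin⟩ := crossing (fun i => -(v i).1)
        (fun i => by rw [neg_sub_neg, abs_sub_comm]; exact hstep i)
        (lo := -(X + L')) (hi := -X) (by show -(v 0).1 ≤ _; omega) (by omega) ⟨j, neg_le_neg hj⟩
      refine key k n X f hf (fun l hl => ?_) ?_
      · have := hin l hl; omega
      · have hk : (v k).1 = X + L' := neg_inj.1 hk
        have hkn : (v (k + n)).1 = X := neg_inj.1 hkn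
        rw [hk, hkn, abs_sub_comm, add_sub_cancel_left]; exact le_abs_self _
  · refine measure_iUnion_null fun K => measure_iUnion_null fun M => measure_iUnion_null fun j0 =>
      (measure_biUnion_null_iff (Set.to_countable _)).2 fun s hs => ?_
    exact fails_null G hb hc _ _ j0 s (by simpa using hs) M

theorem result : ∀ (G : Measure ℝ) [IsProbabilityMeasure G], (∀ x : ℝ, G {x} < 1) →
    Measure.infinitePi (fun _ : (ℤ × ℤ) × Bool => G) {t | ∃ v, IsGeodesicRay t v ∧
      ∃ A B C K : ℝ, (A ≠ 0 ∨ B ≠ 0) ∧ ∀ n, |A * (v n).1 + B * (v n).2 + C| ≤ K} = 0 := by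
  intro G _ hG
  have hN := near_null G hG
  set μ := Measure.infinitePi (fun _ : (ℤ × ℤ) × Bool => G)
  set N := {t : (ℤ × ℤ) × Bool → ℝ | ∃ v, IsGeodesicRay t v ∧
      ∃ α β K : ℝ, |α| ≤ 1 ∧ ∀ n, |((v n).2 : ℝ) - α * (v n).1 - β| ≤ K}
  have hmp : MeasurePreserving (fun t e => t (swapEdge e) :
      ((ℤ × ℤ) × Bool → ℝ) → ((ℤ × ℤ) × Bool → ℝ)) μ μ := by
    refine ⟨by fun_prop, Measure.eq_infinitePi _ fun s T hT => ?_⟩
    rw [Measure.map_apply (by fun_prop) (.pi s.countable_toSet fun i _ => hT i)]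
    have : (fun (t : (ℤ × ℤ) × Bool → ℝ) e => t (swapEdge e)) ⁻¹' Set.pi s T =
        Set.pi (s.map swapEdge.toEmbedding) (fun e => T (swapEdge.symm e)) := by
      ext t
      simp only [Set.mem_preimage, Set.mem_pi, Finset.mem_coe, Finset.mem_map_equiv]
      exact ⟨fun h e he => by simpa using h (swapEdge.symm e) he,
        fun h e he => by simpa using h (swapEdge e) (by simpa using he)⟩
    rw [this, Measure.infinitePi_pi _ (fun e _ => hT _), Finset.prod_map]
    simp
  refine measure_mono_null (t := N ∪ (fun t e => t (swapEdge e)) ⁻¹' N) ?_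
    (measure_union_null hN (hmp.preimage_null hN))
  rintro t ⟨v, hv, A, B, C, K, hne, hK⟩
  rcases le_total |A| |B| with h | h
  · have hB : B ≠ 0 := fun hB => by simp_all
    refine Or.inl ⟨v, hv, -A / B, -C / B, K / |B|, ?_, fun n => ?_⟩
    · rw [abs_div, abs_neg, div_le_one (abs_pos.2 hB)]; exact h
    · rw [le_div_iff₀ (abs_pos.2 hB), ← abs_mul]
      refine le_of_eq_of_le (congrArg _ ?_) (hK n)
      field_simp; ring
  · have hA : A ≠ 0 := fun hA => by simp_all
    refine Or.inr ⟨fun i => (v i).swap, ray_swap hv, -B / A, -C / A, K / |A|, ?_, fun n => ?_⟩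
    · rw [abs_div, abs_neg, div_le_one (abs_pos.2 hA)]; exact h
    · rw [le_div_iff₀ (abs_pos.2 hA), ← abs_mul]
      refine le_of_eq_of_le (congrArg _ ?_) (hK n)
      simp only [Prod.snd_swap, Prod.fst_swap]
      field_simp; ring

end

end Vale.Agent.Results.P158.NoRayNearLine
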